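import Vale.Agent.P260.H191.Split
import Vale.Agent.P260.H573.Defs

/-!
P260, block F, piece F1 (dynamics): finitely many translates of two proper subspaces.
-/

open Topology

namespace Vale.Agent.P260.F

/-- compactness of `G → Bool` -/
theorem compact_bool {G : Type*} (Sf : (G → Bool) → Finset G) :
    ∃ t : Finset (G → Bool), ∀ τ' : G → Bool, ∃ τ ∈ t, ∀ h ∈ Sf τ, τ' h = τ h := by
  obtain ⟨t, -, ht⟩ := (isCompact_univ (X := G → Bool)).elim_nhds_subcover
    (fun τ => Set.pi (Sf τ) fun h => {τ h}) (fun τ _ => by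
      apply (isOpen_set_pi (Finset.finite_toSet _) fun _ _ => isOpen_discrete _).mem_nhds
      intro h _
      rfl)
  refine ⟨t, fun τ' => ?_⟩
  have h1 := ht (Set.mem_univ τ')
  simp only [Set.mem_iUnion, exists_prop] at h1
  obtain ⟨τ, hτ, h2⟩ := h1
  exact ⟨τ, hτ, fun h hh => h2 h hh⟩

theorem exists_finset_iInf {G L V : Type*} [Field L] [AddCommGroup V] [Module L V]
    [FiniteDimensional L V] (f : G → Submodule L V) :
    ∃ S : Finset G, ∀ v, (∀ h ∈ S, v ∈ f h) → ∀ h, v ∈ f h := by
  classical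
  obtain ⟨S, -, hS⟩ := WellFounded.has_min
    (InvImage.wf (fun S : Finset G => Module.finrank L (⨅ h ∈ S, f h : Submodule L V))
      Nat.lt_wfRel.wf) Set.univ ⟨∅, trivial⟩
  refine ⟨S, fun v hv h => ?_⟩
  have h1 := hS (insert h S) trivial
  have h2 : (⨅ k ∈ insert h S, f k : Submodule L V) ≤ ⨅ k ∈ S, f k := by
    apply le_iInf₂
    intro k hk
    exact iInf₂_le k (Finset.mem_insert_of_mem hk)
  have h3 : (⨅ k ∈ insert h S, f k : Submodule L V) = ⨅ k ∈ S, f k := by
    apply Submodule.eq_of_le_of_finrank_le h2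
    exact not_lt.1 h1
  have h4 : v ∈ (⨅ k ∈ S, f k : Submodule L V) := by
    simp only [Submodule.mem_iInf]
    exact hv
  rw [← h3] at h4
  simp only [Submodule.mem_iInf] at h4
  exact h4 h (Finset.mem_insert_self h S)

section

variable {G L : Type*} [Group G] [Field L] {n : ℕ} (rho : G →* GL (Fin n) L)

/-- the linear map of `rho g` -/
noncomputable def act (g : G) : Module.End L (Fin n → L) :=
  Matrix.mulVecLin (rho g : Matrix (Fin n) (Fin n) L)

theorem act_one : act rho 1 = 1 := by
  rw [act, map_one, Units.val_one, Matrix.mulVecLin_one]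
  rfl

theorem act_mul (g h : G) : act rho (g * h) = act rho g * act rho h := by
  rw [act, map_mul, Units.val_mul, Matrix.mulVecLin_mul]
  rfl

theorem act_pow (g : G) (m : ℕ) : act rho (g ^ m) = act rho g ^ m := by
  induction m with
  | zero => rw [pow_zero, pow_zero, act_one]
  | succ m ih => rw [pow_succ, pow_succ, act_mul, ih]

theorem act_inv_mul (g : G) : act rho g⁻¹ * act rho g = 1 := by
  rw [← act_mul, inv_mul_cancel, act_one]

theorem act_mul_inv (g : G) : act rho g * act rho g⁻¹ = 1 := by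
  rw [← act_mul, mul_inv_cancel, act_one]

/-- the action on subspaces -/
@[instance_reducible]
noncomputable def subAct : MulAction G (Submodule L (Fin n → L)) where
  smul g W := W.comap (act rho g⁻¹)
  one_smul W := by
    change W.comap (act rho 1⁻¹) = W
    rw [inv_one, act_one]
    exact Submodule.comap_id W
  mul_smul g h W := by
    change W.comap (act rho (g * h)⁻¹) = (W.comap (act rho h⁻¹)).comap (act rho g⁻¹)
    rw [mul_inv_rev, act_mul]
    rfl

theorem finrank_comap_le (g : G) (W : Submodule L (Fin n → L)) :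
    Module.finrank L (W.comap (act rho g⁻¹) : Submodule L (Fin n → L)) ≤ Module.finrank L W := by
  have h : W.comap (act rho g⁻¹) ≤ W.map (act rho g) := by
    intro v hv
    refine ⟨act rho g⁻¹ v, hv, ?_⟩
    rw [← Module.End.mul_apply, act_mul_inv, Module.End.one_apply]
  exact (Submodule.finrank_mono h).trans (Submodule.finrank_map_le _ _)

theorem finrank_comap (g : G) (W : Submodule L (Fin n → L)) :
    Module.finrank L (W.comap (act rho g⁻¹) : Submodule L (Fin n → L)) = Module.finrank L W := by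
  apply le_antisymm (finrank_comap_le rho g W)
  have h := finrank_comap_le rho g⁻¹ (W.comap (act rho g⁻¹))
  have h2 : (W.comap (act rho g⁻¹)).comap (act rho g⁻¹⁻¹) = W := by
    rw [inv_inv]
    change W.comap (act rho g⁻¹ * act rho g) = W
    rw [act_inv_mul]
    exact Submodule.comap_id W
  rwa [h2] at h

/-- Finitely many translates `h (E₊ ∪ E₋)` of two proper subspaces intersect in `0` if the
representation is strongly irreducible. -/
theorem exists_finite_cover (hs : Str rho) (E : Bool → Submodule L (Fin n → L))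
    (hE : ∀ i, E i ≠ ⊤) :
    ∃ S : Finset G, ∀ σ : G → Bool, ∀ v : Fin n → L,
      (∀ h ∈ S, act rho h⁻¹ v ∈ E (σ h)) → v = 0 := by
  classical
  let W : (G → Bool) → Submodule L (Fin n → L) := fun σ => ⨅ h, (E (σ h)).comap (act rho h⁻¹)
  have hW : ∀ σ v, v ∈ W σ ↔ ∀ h, act rho h⁻¹ v ∈ E (σ h) := by
    intro σ v
    simp only [W, Submodule.mem_iInf, Submodule.mem_comap]
  choose Sf hSf using fun σ : G → Bool =>
    exists_finset_iInf fun h => (E (σ h)).comap (act rho h⁻¹)
  obtain ⟨t, ht⟩ := compact_bool Sf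
  have hle : ∀ τ', ∃ τ ∈ t, W τ' ≤ W τ := by
    intro τ'
    obtain ⟨τ, hτ, h1⟩ := ht τ'
    refine ⟨τ, hτ, fun v hv => ?_⟩
    rw [hW] at hv ⊢
    apply hSf τ v
    intro h hh
    rw [Submodule.mem_comap, ← h1 h hh]
    exact hv h
  by_cases hbot : ∀ τ, W τ = ⊥
  · refine ⟨t.biUnion Sf, fun σ v hv => ?_⟩
    obtain ⟨τ, hτ, h1⟩ := ht σ
    have h2 : v ∈ W τ := by
      rw [hW]
      apply hSf τ v
      intro h hh
      rw [Submodule.mem_comap, ← h1 h hh]
      exact hv h (Finset.mem_biUnion.2 ⟨τ, hτ, hh⟩)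
    rw [hbot τ] at h2
    exact (Submodule.mem_bot L).1 h2
  · exfalso
    push Not at hbot
    have htne : t.Nonempty := by
      obtain ⟨τ, hτ, -⟩ := hle fun _ => true
      exact ⟨τ, hτ⟩
    obtain ⟨σ₀, hσ₀, hmax⟩ := Finset.exists_max_image t (fun τ => Module.finrank L (W τ)) htne
    have hmax' : ∀ τ, Module.finrank L (W τ) ≤ Module.finrank L (W σ₀) := by
      intro τ'
      obtain ⟨τ, hτ, h1⟩ := hle τ'
      exact (Submodule.finrank_mono h1).trans (hmax τ hτ)
    have hne : W σ₀ ≠ ⊥ := by
      intro h0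
      obtain ⟨τ, hτ⟩ := hbot
      apply hτ
      have h1 := hmax' τ
      rw [h0, finrank_bot] at h1
      exact Submodule.finrank_eq_zero.1 (Nat.le_zero.1 h1)
    have hne' : W σ₀ ≠ ⊤ := by
      intro h0
      apply hE (σ₀ 1)
      rw [eq_top_iff]
      intro v _
      have h1 : v ∈ W σ₀ := by rw [h0]; trivial
      have h2 := (hW _ _).1 h1 1
      rwa [inv_one, act_one, Module.End.one_apply] at h2
    -- the orbit of `W σ₀` is finite
    let := subAct (n := n) rho
    have horb : (MulAction.orbit G (W σ₀)).Finite := by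
      apply (t.image W).finite_toSet.subset
      rintro _ ⟨k, rfl⟩
      change ((W σ₀).comap (act rho k⁻¹)) ∈ _
      have h1 : (W σ₀).comap (act rho k⁻¹) = W fun h => σ₀ (k⁻¹ * h) := by
        ext v
        rw [Submodule.mem_comap, hW, hW]
        constructor
        · intro h h'
          have := h (k⁻¹ * h')
          rwa [← Module.End.mul_apply, ← act_mul,
            show (k⁻¹ * h')⁻¹ * k⁻¹ = h'⁻¹ by group] at this
        · intro h h'
          have := h (k * h')
          rw [show k⁻¹ * (k * h') = h' by group] at this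
          rwa [← Module.End.mul_apply, ← act_mul,
            show h'⁻¹ * k⁻¹ = (k * h')⁻¹ by group]
      obtain ⟨τ, hτ, h2⟩ := hle fun h => σ₀ (k⁻¹ * h)
      have h3 : W (fun h => σ₀ (k⁻¹ * h)) = W τ := by
        apply Submodule.eq_of_le_of_finrank_le h2
        rw [← h1, finrank_comap]
        exact hmax τ hτ
      rw [h1, h3, Finset.mem_coe]
      exact Finset.mem_image_of_mem W hτ
    have hfi : (MulAction.stabilizer G (W σ₀)).FiniteIndex := by
      constructor
      rw [MulAction.index_stabilizer]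
      exact (Set.ncard_pos horb).2 (MulAction.nonempty_orbit (W σ₀)) |>.ne'
    have hspan := hs _ hfi
    have hpres : ∀ A : Matrix (Fin n) (Fin n) L, ∀ w ∈ W σ₀, A.mulVec w ∈ W σ₀ := by
      intro A
      have hA : A ∈ Submodule.span L ((fun g : G => (rho g : Matrix (Fin n) (Fin n) L)) ''
          (MulAction.stabilizer G (W σ₀) : Set G)) := by
        rw [hspan]; trivial
      induction hA using Submodule.span_induction with
      | mem x hx =>
        obtain ⟨h, hh, rfl⟩ := hx
        intro w hw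
        have h1 : (W σ₀).comap (act rho h⁻¹) = W σ₀ := MulAction.mem_stabilizer_iff.1 hh
        change act rho h w ∈ W σ₀
        rw [← h1, Submodule.mem_comap, ← Module.End.mul_apply, act_inv_mul, Module.End.one_apply]
        exact hw
      | zero =>
        intro w _
        rw [Matrix.zero_mulVec]
        exact zero_mem _
      | add x y _ _ hx hy =>
        intro w hw
        rw [Matrix.add_mulVec]
        exact add_mem (hx w hw) (hy w hw)
      | smul c x _ hx =>
        intro w hw
        rw [Matrix.smul_mulVec]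
        exact Submodule.smul_mem _ _ (hx w hw)
    obtain ⟨w, hw, hw0⟩ := Submodule.exists_mem_ne_zero_of_ne_bot hne
    apply hne'
    rw [eq_top_iff]
    intro v _
    obtain ⟨i, hi⟩ := Function.ne_iff.1 hw0
    have h1 := hpres (Matrix.vecMulVec v (Pi.single i (w i)⁻¹)) w hw
    have h2 : (Matrix.vecMulVec v (Pi.single i (w i)⁻¹)).mulVec w = v := by
      rw [Matrix.vecMulVec_mulVec]
      ext j
      simp [inv_mul_cancel₀ hi]
    rwa [h2] at h1

end

theorem exists_lower_bound {G L : Type*} [NormedField L] {n : ℕ} (S : Finset G)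
    (f : G → Bool → Module.End L (Fin n → L))
    (hS : ∀ σ : G → Bool, ∀ v, (∀ h ∈ S, f h (σ h) v = 0) → v = 0) :
    ∃ c : ℝ, 0 < c ∧ ∀ σ : G → Bool, ∀ v, v ≠ 0 → ∃ h ∈ S, c * ‖v‖ ≤ ‖f h (σ h) v‖ := by
  classical
  have key : ∀ σ : S → Bool, ∃ K, 0 ≤ K ∧ ∀ v, ‖v‖ ≤ K * ∑ h : S, ‖f h (σ h) v‖ := by
    intro σ
    let Φ : (Fin n → L) →ₗ[L] (S → Fin n → L) := LinearMap.pi fun h => f h (σ h)
    have hker : LinearMap.ker Φ = ⊥ := by
      rw [LinearMap.ker_eq_bot']
      intro v hv
      apply hS (fun h => if hh : h ∈ S then σ ⟨h, hh⟩ else true)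
      intro h hh
      rw [dif_pos hh]
      exact congrFun hv ⟨h, hh⟩
    obtain ⟨Ψ, hΨ⟩ := LinearMap.exists_leftInverse_of_injective Φ hker
    choose K hK0 hK using fun h : S => bound_pi (Ψ ∘ₗ LinearMap.single L (fun _ => Fin n → L) h)
    refine ⟨∑ h, K h, Finset.sum_nonneg fun h _ => hK0 h, fun v => ?_⟩
    have h1 : v = ∑ h : S, (Ψ ∘ₗ LinearMap.single L (fun _ => Fin n → L) h) (f h (σ h) v) := by
      calc v = Ψ (Φ v) := by
            rw [← LinearMap.comp_apply, hΨ, LinearMap.id_apply]
        _ = Ψ (∑ h : S, Pi.single h (Φ v h)) := by rw [Finset.univ_sum_single]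
        _ = _ := by
            rw [map_sum]
            rfl
    calc ‖v‖ = ‖∑ h : S, (Ψ ∘ₗ LinearMap.single L (fun _ => Fin n → L) h) (f h (σ h) v)‖ := by
          rw [← h1]
      _ ≤ ∑ h : S, ‖(Ψ ∘ₗ LinearMap.single L (fun _ => Fin n → L) h) (f h (σ h) v)‖ :=
          norm_sum_le _ _
      _ ≤ ∑ h : S, (∑ h, K h) * ‖f h (σ h) v‖ := by
          apply Finset.sum_le_sum
          intro h _
          refine (hK h _).trans ?_
          gcongr
          exact Finset.single_le_sum (fun k _ => hK0 k) (Finset.mem_univ h)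
      _ = _ := by rw [Finset.mul_sum]
  choose K hK0 hK using key
  set M := ∑ σ : S → Bool, K σ with hM
  have hM0 : 0 ≤ M := Finset.sum_nonneg fun σ _ => hK0 σ
  refine ⟨1 / (M * S.card + 1), by positivity, fun σ v hv => ?_⟩
  by_contra hcon
  push Not at hcon
  have h1 := hK (fun h : S => σ h) v
  have h2 : ∑ h : S, ‖f h (σ h) v‖ ≤ S.card * (1 / (M * S.card + 1) * ‖v‖) := by
    calc ∑ h : S, ‖f h (σ h) v‖ ≤ ∑ h : S, (1 / (M * S.card + 1) * ‖v‖) := by
          apply Finset.sum_le_sum
          intro h _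
          exact (hcon h h.2).le
      _ = _ := by simp
  have h3 : K (fun h : S => σ h) ≤ M :=
    Finset.single_le_sum (f := K) (fun k _ => hK0 k) (Finset.mem_univ _)
  have h4 : ‖v‖ ≤ M * (S.card * (1 / (M * S.card + 1) * ‖v‖)) := by
    refine h1.trans ?_
    gcongr
  have hv' : 0 < ‖v‖ := norm_pos_iff.2 hv
  have h5 : M * (S.card * (1 / (M * S.card + 1) * ‖v‖)) = (M * S.card / (M * S.card + 1)) * ‖v‖ := by
    field_simp
  rw [h5] at h4
  have h6 : (M * S.card / (M * S.card + 1)) < 1 := by
    rw [div_lt_one (by positivity)]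
    linarith
  nlinarith

end Vale.Agent.P260.F
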