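import Vale.Agent.P260.H191.Count
import Vale.Agent.P260.H191.Cover

/-!
P260, block F, piece F1 (dynamics).
-/

namespace Vale.Agent.P260.F

/-- A group satisfying Følner's condition has no strongly irreducible representation over a normed
algebraically closed field in which some element has two eigenvalues of different norms. -/
theorem dyn {G : Type*} [Group G] (hF : Folner G) {L : Type*} [NormedField L] [IsAlgClosed L]
    {n : ℕ} (rho : G →* GL (Fin n) L) (hs : Str rho) (g : G) (a b : L)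
    (ha : (rho g : Matrix (Fin n) (Fin n) L).charpoly.IsRoot a)
    (hb : (rho g : Matrix (Fin n) (Fin n) L).charpoly.IsRoot b) (hab : ‖a‖ ≠ ‖b‖) : False := by
  classical
  wlog hlt : ‖b‖ < ‖a‖ generalizing a b
  · exact this b a hb ha hab.symm (lt_of_le_of_ne (not_lt.1 hlt) hab)
  -- eigenvectors
  have heig : ∀ c, (rho g : Matrix (Fin n) (Fin n) L).charpoly.IsRoot c →
      ∃ x : Fin n → L, x ≠ 0 ∧ act rho g x = c • x := by
    intro c hc
    rw [← Matrix.charpoly_mulVecLin] at hc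
    have h1 : (act rho g).HasEigenvalue c :=
      (Module.End.hasEigenvalue_iff_isRoot_charpoly _ c).2 hc
    obtain ⟨x, hx⟩ := h1.exists_hasEigenvector
    exact ⟨x, hx.2, hx.apply_eq_smul⟩
  obtain ⟨x, hx, hTx⟩ := heig a ha
  obtain ⟨y, hy, hTy⟩ := heig b hb
  obtain ⟨p, q, hpq, hTp, hTq, hpk, hqk, B, θ, hB, hθ, hdyn⟩ :=
    split (act rho g) (act rho g⁻¹) (act_inv_mul rho g) (act_mul_inv rho g) a b x y hx hTx hy hTy hlt
  obtain ⟨S, hS⟩ := exists_finite_cover rho hs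
    (fun i => if i then LinearMap.ker p else LinearMap.ker q) (by
      intro i
      cases i
      · simpa using hqk
      · simpa using hpk)
  obtain ⟨c, hc0, hc⟩ := exists_lower_bound S
    (fun h i => (if i then p else q) * act rho h⁻¹) (by
      intro σ v hv
      apply hS σ v
      intro h hh
      have h1 := hv h hh
      cases hi : σ h
      · rw [hi] at h1
        simpa [LinearMap.mem_ker] using h1
      · rw [hi] at h1
        simpa [LinearMap.mem_ker] using h1)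
  -- upper bounds
  choose Kp hKp0 hKp using fun h : G => bound_pi (p * act rho h⁻¹)
  choose Kq hKq0 hKq using fun h : G => bound_pi (q * act rho h⁻¹)
  set M := ∑ h ∈ S, (Kp h + Kq h) with hM
  have hM0 : 0 ≤ M := Finset.sum_nonneg fun h _ => add_nonneg (hKp0 h) (hKq0 h)
  have hMp : ∀ h ∈ S, ∀ v, ‖p (act rho h⁻¹ v)‖ ≤ M * ‖v‖ := by
    intro h hh v
    refine (hKp h v).trans ?_
    gcongr
    calc Kp h ≤ Kp h + Kq h := by linarith [hKq0 h]
      _ ≤ M := Finset.single_le_sum (f := fun h => Kp h + Kq h)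
        (fun k _ => add_nonneg (hKp0 k) (hKq0 k)) hh
  have hMq : ∀ h ∈ S, ∀ v, ‖q (act rho h⁻¹ v)‖ ≤ M * ‖v‖ := by
    intro h hh v
    refine (hKq h v).trans ?_
    gcongr
    calc Kq h ≤ Kp h + Kq h := by linarith [hKp0 h]
      _ ≤ M := Finset.single_le_sum (f := fun h => Kp h + Kq h)
        (fun k _ => add_nonneg (hKp0 k) (hKq0 k)) hh
  set ε := c / (M + 1) with hε
  have hε0 : 0 < ε := by positivity
  have hεM : ε * M < c := by
    rw [hε, div_mul_eq_mul_div, div_lt_iff₀ (by positivity)]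
    nlinarith
  -- the set `A`
  set A : Set (Fin n → L) := {w | w ≠ 0 ∧ ε * ‖p w‖ ≤ ‖q w‖ ∧ ε * ‖q w‖ ≤ ‖p w‖} with hA
  have hne : ∀ k : G, ∀ v, v ≠ 0 → act rho k v ≠ 0 := by
    intro k v hv h0
    apply hv
    have h1 : (act rho k⁻¹ * act rho k) v = 0 := by rw [Module.End.mul_apply, h0, map_zero]
    rwa [act_inv_mul, Module.End.one_apply] at h1
  have hcovA : ∀ v, v ≠ 0 → ∃ h ∈ S, act rho h⁻¹ v ∈ A := by
    intro v hv
    by_contra hcon
    push Not at hcon
    obtain ⟨h, hh, h1⟩ := hc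
      (fun h => decide (‖p (act rho h⁻¹ v)‖ < ε * ‖q (act rho h⁻¹ v)‖)) v hv
    have h2 := hcon h hh
    have h3 : ¬ (ε * ‖p (act rho h⁻¹ v)‖ ≤ ‖q (act rho h⁻¹ v)‖ ∧
        ε * ‖q (act rho h⁻¹ v)‖ ≤ ‖p (act rho h⁻¹ v)‖) := fun h4 => h2 ⟨hne _ v hv, h4⟩
    have hv' : 0 < ‖v‖ := norm_pos_iff.2 hv
    by_cases h4 : ‖p (act rho h⁻¹ v)‖ < ε * ‖q (act rho h⁻¹ v)‖
    · rw [decide_eq_true h4] at h1
      simp only [if_true, Module.End.mul_apply] at h1
      have h5 := hMq h hh v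
      nlinarith
    · rw [decide_eq_false h4] at h1
      simp only [Bool.false_eq_true, if_false, Module.End.mul_apply] at h1
      have h5 := hMp h hh v
      have h6 : ‖q (act rho h⁻¹ v)‖ < ε * ‖p (act rho h⁻¹ v)‖ := by
        by_contra h7
        exact h3 ⟨not_lt.1 h7, not_lt.1 h4⟩
      nlinarith
  obtain ⟨n₀, hn₀⟩ := pow_unbounded_of_one_lt (B / ε ^ 2) hθ
  have hpos : ∀ w ∈ A, 0 < ‖p w‖ ∧ 0 < ‖q w‖ := by
    rintro w ⟨hw, h1, h2⟩
    have h3 : p w + q w = w := by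
      rw [← LinearMap.add_apply, hpq, Module.End.one_apply]
    constructor
    · by_contra h4
      have h5 : ‖p w‖ = 0 := le_antisymm (not_lt.1 h4) (norm_nonneg _)
      have h6 : ‖q w‖ = 0 := by
        have := norm_nonneg (q w)
        rw [h5] at h2
        nlinarith
      rw [norm_eq_zero] at h5 h6
      rw [h5, h6, add_zero] at h3
      exact hw h3.symm
    · by_contra h4
      have h5 : ‖q w‖ = 0 := le_antisymm (not_lt.1 h4) (norm_nonneg _)
      have h6 : ‖p w‖ = 0 := by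
        have := norm_nonneg (p w)
        rw [h5] at h1
        nlinarith
      rw [norm_eq_zero] at h5 h6
      rw [h5, h6, add_zero] at h3
      exact hw h3.symm
  have hcontr : ∀ w ∈ A, ∀ m, n₀ ≤ m → ((act rho g) ^ m) w ∉ A := by
    intro w hw m hm hw'
    have h1 := hdyn w m
    obtain ⟨hp1, hq1⟩ := hpos w hw
    obtain ⟨hp2, hq2⟩ := hpos _ hw'
    set w' := ((act rho g) ^ m) w with hw'_def
    have h2 : ε ^ 2 * (‖q w‖ * ‖p w'‖) ≤ ‖p w‖ * ‖q w'‖ := by
      calc ε ^ 2 * (‖q w‖ * ‖p w'‖) = (ε * ‖q w‖) * (ε * ‖p w'‖) := by ring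
        _ ≤ ‖p w‖ * ‖q w'‖ := by
          apply mul_le_mul hw.2.2 hw'.2.1 (by positivity) (by positivity)
    have h3 : B / ε ^ 2 < θ ^ m := hn₀.trans_le (pow_le_pow_right₀ hθ.le hm)
    rw [div_lt_iff₀ (by positivity)] at h3
    have h4 : 0 < ‖p w‖ * ‖q w'‖ := by positivity
    have h5 : 0 < ‖q w‖ * ‖p w'‖ := by positivity
    have h6 : B * (‖q w‖ * ‖p w'‖) < θ ^ m * (‖p w‖ * ‖q w'‖) := by
      calc B * (‖q w‖ * ‖p w'‖) < (θ ^ m * ε ^ 2) * (‖q w‖ * ‖p w'‖) := by gcongr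
        _ = θ ^ m * (ε ^ 2 * (‖q w‖ * ‖p w'‖)) := by ring
        _ ≤ θ ^ m * (‖p w‖ * ‖q w'‖) := by gcongr
    linarith
  refine folner_cover hF S (fun h => {γ | act rho (h⁻¹ * γ) x ∈ A}) ?_
    (fun h i => h * g ^ (i * n₀) * h⁻¹) ?_
  · intro γ
    obtain ⟨h, hh, h1⟩ := hcovA (act rho γ x) (hne γ x hx)
    refine ⟨h, hh, ?_⟩
    change act rho (h⁻¹ * γ) x ∈ A
    rw [act_mul]
    exact h1
  · intro h hh i j hij γ hγ γ' hγ' heq
    change act rho (h⁻¹ * γ) x ∈ A at hγ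
    change act rho (h⁻¹ * γ') x ∈ A at hγ'
    apply hcontr _ hγ' ((j - i) * n₀) (Nat.le_mul_of_pos_left _ (Nat.sub_pos_of_lt hij))
    rw [← act_pow, ← Module.End.mul_apply, ← act_mul]
    have h1 : g ^ ((j - i) * n₀) * (h⁻¹ * γ') = h⁻¹ * γ := by
      have h2 : g ^ (j * n₀) = g ^ (i * n₀) * g ^ ((j - i) * n₀) := by
        rw [← pow_add, ← add_mul, Nat.add_sub_cancel' hij.le]
      have h3 : h * g ^ (i * n₀) * h⁻¹ * γ = h * g ^ (j * n₀) * h⁻¹ * γ' := heq
      rw [h2] at h3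
      have h4 : γ = h * g ^ ((j - i) * n₀) * h⁻¹ * γ' := by
        have h5 : γ = (h * g ^ (i * n₀) * h⁻¹)⁻¹ * (h * g ^ (i * n₀) * h⁻¹ * γ) := by group
        rw [h5, h3]
        group
      rw [h4]
      group
    rw [h1]
    exact hγ

end Vale.Agent.P260.F
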