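import Vale.Agent.P260.H191.Unif
import Vale.Agent.P260.H573.BlockF

/-!
P260, theorem T4, block F2.
-/

namespace Vale.Agent.P260

/-- Block F2: uniform virtual solvability for families of linear representations in
characteristic zero of a finitely generated amenable group. -/
theorem blockF2 : BlockF2 := H191.blockF2_of blockF_lit

end Vale.Agent.P260
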