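import Vale.Agent.P260.H573.Defs

/-!
P260, block F, piece F1 (dynamics): the counting step.
-/

namespace Vale.Agent.P260.F

open Classical in
/-- If `G` satisfies Følner's condition, then `G` is not covered by finitely many sets `B h`, each of
which has infinitely many pairwise disjoint translates. -/
theorem folner_cover {G : Type*} [Group G] (hF : Folner G) (S : Finset G) (B : G → Set G)
    (hcov : ∀ γ : G, ∃ h ∈ S, γ ∈ B h) (u : G → ℕ → G)
    (hdisj : ∀ h ∈ S, ∀ i j : ℕ, i < j → ∀ γ ∈ B h, ∀ γ' ∈ B h, u h i * γ ≠ u h j * γ') :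
    False := by
  obtain ⟨h0, hh0, -⟩ := hcov 1
  have hspos : 0 < S.card := Finset.card_pos.2 ⟨h0, hh0⟩
  obtain ⟨F, hFne, hF'⟩ := hF (S.biUnion fun h => (Finset.range (3 * S.card)).image (u h))
    (1 / (2 * S.card)) (by positivity)
  have hFpos : 0 < F.card := hFne.card_pos
  have key : ∃ h ∈ S, F.card ≤ S.card * (F.filter (· ∈ B h)).card := by
    by_contra hcon
    push Not at hcon
    have h1 : F.card ≤ ∑ h ∈ S, (F.filter (· ∈ B h)).card := by
      calc F.card ≤ (S.biUnion fun h => F.filter (· ∈ B h)).card := by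
            apply Finset.card_le_card
            intro x hx
            obtain ⟨h, hh, hxh⟩ := hcov x
            simp only [Finset.mem_biUnion, Finset.mem_filter]
            exact ⟨h, hh, hx, hxh⟩
        _ ≤ _ := Finset.card_biUnion_le
    have h2 : S.card * ∑ h ∈ S, (F.filter (· ∈ B h)).card < S.card * F.card := by
      rw [Finset.mul_sum]
      calc _ < ∑ _h ∈ S, F.card :=
            Finset.sum_lt_sum_of_nonempty ⟨h0, hh0⟩ fun h hh => hcon h hh
        _ = S.card * F.card := by simp
    have h3 := Nat.mul_le_mul_left S.card h1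
    omega
  obtain ⟨h, hhS, hh⟩ := key
  set A := F.filter (· ∈ B h) with hA
  have hcard : ∀ i, A.card ≤ ((A.image (u h i * ·)) ∩ F).card +
      ((F.image (u h i * ·)) \ F).card := by
    intro i
    have h1 : (A.image (u h i * ·)).card = A.card :=
      Finset.card_image_of_injective _ (mul_right_injective _)
    rw [← h1, ← Finset.card_inter_add_card_sdiff (A.image (u h i * ·)) F]
    gcongr
    exact Finset.filter_subset _ _
  have hsum : ∑ i ∈ Finset.range (3 * S.card), ((A.image (u h i * ·)) ∩ F).card ≤ F.card := by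
    rw [← Finset.card_biUnion]
    · apply Finset.card_le_card
      intro x hx
      simp only [Finset.mem_biUnion, Finset.mem_inter] at hx
      obtain ⟨i, -, -, hx⟩ := hx
      exact hx
    · have aux : ∀ i j : ℕ, i < j →
          Disjoint ((A.image (u h i * ·)) ∩ F) ((A.image (u h j * ·)) ∩ F) := by
        intro i j hij
        rw [Finset.disjoint_left]
        intro x hx hx'
        simp only [Finset.mem_inter, Finset.mem_image] at hx hx'
        obtain ⟨⟨γ, hγ, rfl⟩, -⟩ := hx
        obtain ⟨⟨γ', hγ', h'⟩, -⟩ := hx'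
        rw [hA, Finset.mem_filter] at hγ hγ'
        exact hdisj h hhS i j hij γ hγ.2 γ' hγ'.2 h'.symm
      intro i _ j _ hij
      rcases lt_or_gt_of_ne hij with h1 | h1
      · exact aux i j h1
      · exact (aux j i h1).symm
  have hsm : ∀ i ∈ Finset.range (3 * S.card),
      (((F.image (u h i * ·)) \ F).card : ℝ) ≤ 1 / (2 * S.card) * F.card := by
    intro i hi
    apply hF'
    rw [Finset.mem_biUnion]
    exact ⟨h, hhS, Finset.mem_image_of_mem _ hi⟩
  have htot : ((3 * S.card : ℕ) : ℝ) * A.card ≤
      F.card + (3 * S.card : ℕ) * (1 / (2 * S.card) * F.card) := by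
    calc ((3 * S.card : ℕ) : ℝ) * A.card = ∑ i ∈ Finset.range (3 * S.card), (A.card : ℝ) := by simp
      _ ≤ ∑ i ∈ Finset.range (3 * S.card), ((((A.image (u h i * ·)) ∩ F).card : ℝ) +
          1 / (2 * S.card) * F.card) := by
          apply Finset.sum_le_sum
          intro i hi
          have h1 := hsm i hi
          have h2 : (A.card : ℝ) ≤ ((A.image (u h i * ·)) ∩ F).card +
            ((F.image (u h i * ·)) \ F).card := by exact_mod_cast hcard i
          linarith
      _ = ((∑ i ∈ Finset.range (3 * S.card), ((A.image (u h i * ·)) ∩ F).card : ℕ) : ℝ) +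
          (3 * S.card : ℕ) * (1 / (2 * S.card) * F.card) := by
          rw [Finset.sum_add_distrib]
          simp
      _ ≤ _ := by
          gcongr
  have hs : (0 : ℝ) < S.card := by exact_mod_cast hspos
  have hf : (0 : ℝ) < F.card := by exact_mod_cast hFpos
  have h1 : (F.card : ℝ) ≤ S.card * A.card := by exact_mod_cast hh
  have h2 : ((3 * S.card : ℕ) : ℝ) * (1 / (2 * S.card) * F.card) = 3 / 2 * F.card := by
    push_cast
    field_simp
  rw [h2] at htot
  push_cast at htot
  nlinarith

end Vale.Agent.P260.F
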