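import Mathlib

/-!
P260, block F, piece F1 (dynamics): growth of the powers of a matrix on the sums of its generalised
eigenspaces, over an arbitrary normed field (no completeness is used).
-/

open Polynomial

namespace Vale.Agent.P260.F

/-- `∏ (X - a)` -/
noncomputable def rp {L : Type*} [Field L] (s : Multiset L) : L[X] :=
  (s.map fun a => X - C a).prod

theorem rp_zero {L : Type*} [Field L] : rp (0 : Multiset L) = 1 := by simp [rp]

theorem rp_cons {L : Type*} [Field L] (a : L) (s : Multiset L) :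
    rp (a ::ₘ s) = (X - C a) * rp s := by simp [rp]

section growth

variable {L V : Type*} [NormedField L] [NormedAddCommGroup V] [NormedSpace L V]

theorem growth_step (S : V →ₗ[L] V) {K : ℝ} (hK0 : 0 ≤ K) (hK : ∀ x, ‖S x‖ ≤ K * ‖x‖)
    {U U' : Submodule L V} {b : L} {r ρ : ℝ} (hb : ‖b‖ ≤ r) (hr : r < ρ)
    (hU : ∀ x ∈ U', S x - b • x ∈ U)
    (ih : ∃ B, 0 ≤ B ∧ ∀ x ∈ U, ∀ m : ℕ, ‖(S ^ m) x‖ ≤ B * ρ ^ m * ‖x‖) :
    ∃ B, 0 ≤ B ∧ ∀ x ∈ U', ∀ m : ℕ, ‖(S ^ m) x‖ ≤ B * ρ ^ m * ‖x‖ := by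
  obtain ⟨B, hB0, hB⟩ := ih
  have hr0 : 0 ≤ r := (norm_nonneg b).trans hb
  have hρ : 0 < ρ := hr0.trans_lt hr
  have hρr : 0 < ρ - r := by linarith
  refine ⟨B * (K + r) / (ρ - r) + 1, by positivity, ?_⟩
  intro x hx m
  have hy := hU x hx
  have hyn : ‖S x - b • x‖ ≤ (K + r) * ‖x‖ := by
    calc ‖S x - b • x‖ ≤ ‖S x‖ + ‖b • x‖ := norm_sub_le _ _
      _ ≤ K * ‖x‖ + r * ‖x‖ := by
          rw [norm_smul]
          exact add_le_add (hK x) (by gcongr)
      _ = (K + r) * ‖x‖ := by ring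
  have hkey : B * (K + r) ≤ (B * (K + r) / (ρ - r) + 1) * (ρ - r) := by
    rw [add_mul, div_mul_cancel₀ _ hρr.ne']
    linarith
  set B' := B * (K + r) / (ρ - r) + 1 with hB'
  induction m with
  | zero =>
    simp only [pow_zero, mul_one, Module.End.one_apply]
    have : 1 ≤ B' := by
      rw [hB']
      have : 0 ≤ B * (K + r) / (ρ - r) := by positivity
      linarith
    nlinarith [norm_nonneg x]
  | succ m ihm =>
    have h1 : (S ^ (m + 1)) x = b • (S ^ m) x + (S ^ m) (S x - b • x) := by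
      rw [pow_succ, Module.End.mul_apply, map_sub, map_smul]
      abel
    rw [h1]
    calc ‖b • (S ^ m) x + (S ^ m) (S x - b • x)‖ ≤ ‖b‖ * ‖(S ^ m) x‖ + ‖(S ^ m) (S x - b • x)‖ := by
          refine (norm_add_le _ _).trans ?_
          rw [norm_smul]
      _ ≤ r * (B' * ρ ^ m * ‖x‖) + B * ρ ^ m * ((K + r) * ‖x‖) := by
          apply add_le_add
          · exact mul_le_mul hb ihm (norm_nonneg _) hr0
          · refine (hB _ hy m).trans ?_
            gcongr
      _ = ρ ^ m * ‖x‖ * (r * B' + B * (K + r)) := by ring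
      _ ≤ ρ ^ m * ‖x‖ * (r * B' + B' * (ρ - r)) := by gcongr
      _ = B' * ρ ^ (m + 1) * ‖x‖ := by ring

/-- Upper bound for the growth of `T ^ m` on the kernel of `∏ (T - a)` if all `‖a‖ ≤ r < ρ`. -/
theorem growth_upper (T : V →ₗ[L] V) {K : ℝ} (hK0 : 0 ≤ K) (hK : ∀ x, ‖T x‖ ≤ K * ‖x‖)
    {r ρ : ℝ} (hr : r < ρ) (s : Multiset L) (hs : ∀ a ∈ s, ‖a‖ ≤ r) :
    ∃ B, 0 ≤ B ∧ ∀ x ∈ LinearMap.ker (aeval T (rp s)), ∀ m : ℕ,
      ‖(T ^ m) x‖ ≤ B * ρ ^ m * ‖x‖ := by
  induction s using Multiset.induction_on with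
  | empty =>
    refine ⟨0, le_rfl, ?_⟩
    intro x hx m
    rw [rp_zero, map_one, LinearMap.mem_ker, Module.End.one_apply] at hx
    simp [hx]
  | cons a s ih =>
    refine growth_step T hK0 hK (b := a) (hs a (Multiset.mem_cons_self a s)) hr ?_
      (ih fun c hc => hs c (Multiset.mem_cons_of_mem hc))
    intro x hx
    rw [LinearMap.mem_ker] at hx ⊢
    rw [rp_cons, mul_comm, map_mul, Module.End.mul_apply] at hx
    simpa using hx

/-- Upper bound for the growth of `T ^ (-m)` on the kernel of `∏ (T - a)` if all `ρ < r ≤ ‖a‖`. -/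
theorem growth_lower (T T' : V →ₗ[L] V) (hT : T' * T = 1) (hT' : T * T' = 1)
    {K : ℝ} (hK0 : 0 ≤ K) (hK : ∀ x, ‖T' x‖ ≤ K * ‖x‖)
    {r ρ : ℝ} (hρ : 0 < ρ) (hr : ρ < r) (s : Multiset L) (hs : ∀ a ∈ s, r ≤ ‖a‖) :
    ∃ B, 0 ≤ B ∧ ∀ x ∈ LinearMap.ker (aeval T (rp s)), ∀ m : ℕ,
      ‖(T' ^ m) x‖ ≤ B * (ρ⁻¹) ^ m * ‖x‖ := by
  have hr0 : 0 < r := hρ.trans hr
  induction s using Multiset.induction_on with
  | empty =>
    refine ⟨0, le_rfl, ?_⟩
    intro x hx m
    rw [rp_zero, map_one, LinearMap.mem_ker, Module.End.one_apply] at hx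
    simp [hx]
  | cons a s ih =>
    have ha : r ≤ ‖a‖ := hs a (Multiset.mem_cons_self a s)
    have ha0 : a ≠ 0 := by
      rintro rfl
      rw [norm_zero] at ha
      linarith
    refine growth_step T' hK0 hK (b := a⁻¹) (r := r⁻¹) ?_ ?_ ?_
      (ih fun c hc => hs c (Multiset.mem_cons_of_mem hc))
    · rw [norm_inv]
      exact inv_anti₀ hr0 ha
    · exact inv_strictAnti₀ hρ hr
    intro x hx
    rw [LinearMap.mem_ker] at hx ⊢
    rw [rp_cons, mul_comm, map_mul, Module.End.mul_apply] at hx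
    have h1 : T' * aeval T (rp s) = aeval T (rp s) * T' := by
      have h0 : T * aeval T (rp s) = aeval T (rp s) * T := by
        have := congrArg (aeval T) (mul_comm X (rp s))
        simpa only [map_mul, aeval_X] using this
      calc T' * aeval T (rp s) = T' * (aeval T (rp s) * T) * T' := by
            rw [mul_assoc T', mul_assoc (aeval T (rp s)), hT', mul_one]
        _ = aeval T (rp s) * T' := by
            rw [← h0, ← mul_assoc, hT, one_mul]
    have h2 : T' x - a⁻¹ • x = T' ((-a⁻¹) • (aeval T (X - C a)) x) := by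
      have h3 : T' (T x) = x := by
        rw [← Module.End.mul_apply, hT, Module.End.one_apply]
      rw [map_smul]
      simp only [map_sub, aeval_X, aeval_C, LinearMap.sub_apply, Module.algebraMap_end_apply,
        map_smul, h3, smul_sub, smul_smul]
      rw [neg_mul, inv_mul_cancel₀ ha0]
      simp only [neg_smul, one_smul]
      abel
    rw [h2, ← Module.End.mul_apply, ← h1, Module.End.mul_apply, map_smul, hx, smul_zero, map_zero]

end growth

end Vale.Agent.P260.F
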