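import Vale.Agent.P260.H191.Growth

/-!
P260, block F, piece F1 (dynamics): the splitting `V = E₊ ⊕ E₋` attached to a matrix with two
eigenvalues of different absolute values.
-/

open Polynomial

namespace Vale.Agent.P260.F

theorem bound_pi {L W ι : Type*} [NormedField L] [NormedAddCommGroup W] [NormedSpace L W]
    [Fintype ι] (f : (ι → L) →ₗ[L] W) : ∃ K, 0 ≤ K ∧ ∀ x, ‖f x‖ ≤ K * ‖x‖ := by
  classical
  refine ⟨∑ i, ‖f fun j => if i = j then 1 else 0‖, by positivity, ?_⟩
  intro x
  rw [LinearMap.pi_apply_eq_sum_univ f x, Finset.sum_mul]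
  refine (norm_sum_le _ _).trans (Finset.sum_le_sum fun i _ => ?_)
  rw [norm_smul, mul_comm]
  gcongr
  exact norm_le_pi_norm x i

theorem eval_rp {L : Type*} [Field L] (s : Multiset L) (a : L) : (rp s).eval a = 0 ↔ a ∈ s := by
  have h : (rp s).IsRoot a ↔ a ∈ (rp s).roots := by
    rw [mem_roots']
    constructor
    · intro h
      refine ⟨?_, h⟩
      exact (monic_multiset_prod_of_monic _ _ fun c _ => monic_X_sub_C c).ne_zero
    · exact fun h => h.2
  rw [rp, roots_multiset_prod_X_sub_C] at h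
  exact h

/-- separation of the norms of the elements of a multiset -/
theorem exists_gap {L : Type*} [NormedField L] (s : Multiset L) (r : ℝ) :
    ∃ r', r < r' ∧ ∀ a ∈ s, r < ‖a‖ → r' ≤ ‖a‖ := by
  induction s using Multiset.induction_on with
  | empty => exact ⟨r + 1, by linarith, by simp⟩
  | cons a s ih =>
    obtain ⟨r', hr', h⟩ := ih
    by_cases ha : r < ‖a‖
    · refine ⟨min r' ‖a‖, lt_min hr' ha, ?_⟩
      intro c hc hrc
      rcases Multiset.mem_cons.1 hc with rfl | hc
      · exact min_le_right _ _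
      · exact (min_le_left _ _).trans (h c hc hrc)
    · refine ⟨r', hr', ?_⟩
      intro c hc hrc
      rcases Multiset.mem_cons.1 hc with rfl | hc
      · exact absurd hrc ha
      · exact h c hc hrc

theorem commute_aeval {L V : Type*} [Field L] [AddCommGroup V] [Module L V] (T : Module.End L V)
    (P : L[X]) : T * aeval T P = aeval T P * T := by
  have := congrArg (aeval T) (mul_comm X P)
  simpa only [map_mul, aeval_X] using this

theorem aeval_eigen {L V : Type*} [Field L] [AddCommGroup V] [Module L V] (T : Module.End L V)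
    {a : L} {x : V} (hx : T x = a • x) (P : L[X]) : aeval T P x = P.eval a • x := by
  induction P using Polynomial.induction_on' with
  | add p q hp hq => simp [hp, hq, add_smul]
  | monomial k c =>
    have h : ∀ m : ℕ, (T ^ m) x = a ^ m • x := by
      intro m
      induction m with
      | zero => simp
      | succ m ih => rw [pow_succ, Module.End.mul_apply, hx, map_smul, ih, smul_smul, pow_succ']
    rw [aeval_monomial, Module.End.mul_apply, h, Module.algebraMap_end_apply, eval_monomial,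
      smul_smul]

/-- The splitting with the contraction property. -/
theorem split {L : Type*} [NormedField L] [IsAlgClosed L] {n : ℕ}
    (T T' : Module.End L (Fin n → L)) (hT : T' * T = 1) (hT' : T * T' = 1) (a b : L)
    (x y : Fin n → L) (hx : x ≠ 0) (hTx : T x = a • x) (hy : y ≠ 0) (hTy : T y = b • y)
    (hab : ‖b‖ < ‖a‖) :
    ∃ p q : Module.End L (Fin n → L), p + q = 1 ∧ T * p = p * T ∧ T * q = q * T ∧
      LinearMap.ker p ≠ ⊤ ∧ LinearMap.ker q ≠ ⊤ ∧ ∃ B θ : ℝ, 0 < B ∧ 1 < θ ∧ ∀ v, ∀ m : ℕ,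
        θ ^ m * (‖p v‖ * ‖q ((T ^ m) v)‖) ≤ B * (‖q v‖ * ‖p ((T ^ m) v)‖) := by
  classical
  set R := T.charpoly.roots with hR
  have hchar : T.charpoly = rp R :=
    (IsAlgClosed.splits _).eq_prod_roots_of_monic (LinearMap.charpoly_monic T)
  set s := R.filter fun c => ‖c‖ ≤ ‖b‖ with hs
  set t := R.filter fun c => ¬ ‖c‖ ≤ ‖b‖ with ht
  have hst : rp t * rp s = T.charpoly := by
    rw [hchar]
    conv_rhs => rw [← Multiset.filter_add_not (fun c => ‖c‖ ≤ ‖b‖) R]
    rw [rp, rp, rp, Multiset.map_add, Multiset.prod_add, mul_comm]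
  have haR : a ∈ R := by
    have h1 : T.HasEigenvalue a := by
      apply Module.End.hasEigenvalue_of_hasEigenvector (x := x)
      exact ⟨Module.End.mem_eigenspace_iff.2 hTx, hx⟩
    rw [hR, mem_roots (LinearMap.charpoly_monic T).ne_zero]
    exact (Module.End.hasEigenvalue_iff_isRoot_charpoly T a).1 h1
  have hbR : b ∈ R := by
    have h1 : T.HasEigenvalue b := by
      apply Module.End.hasEigenvalue_of_hasEigenvector (x := y)
      exact ⟨Module.End.mem_eigenspace_iff.2 hTy, hy⟩
    rw [hR, mem_roots (LinearMap.charpoly_monic T).ne_zero]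
    exact (Module.End.hasEigenvalue_iff_isRoot_charpoly T b).1 h1
  have hat : a ∈ t := by
    rw [ht, Multiset.mem_filter]
    exact ⟨haR, not_le.2 hab⟩
  have hbs : b ∈ s := by
    rw [hs, Multiset.mem_filter]
    exact ⟨hbR, le_rfl⟩
  obtain ⟨r, hbr, hr⟩ := exists_gap R ‖b‖
  have htr : ∀ c ∈ t, r ≤ ‖c‖ := by
    intro c hc
    rw [ht, Multiset.mem_filter] at hc
    exact hr c hc.1 (not_le.1 hc.2)
  have hsr : ∀ c ∈ s, ‖c‖ ≤ ‖b‖ := by
    intro c hc
    rw [hs, Multiset.mem_filter] at hc
    exact hc.2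
  have hcop : IsCoprime (rp t) (rp s) := by
    refine (Polynomial.isCoprime_iff_aeval_ne_zero_of_isAlgClosed L L _ _).2 fun c => ?_
    by_contra hcon
    push Not at hcon
    rw [coe_aeval_eq_eval, eval_rp, eval_rp] at hcon
    have h1 := htr c hcon.1
    have h2 := hsr c hcon.2
    linarith
  obtain ⟨U, W, hUW⟩ := hcop
  obtain ⟨ρ, hbρ, hρr⟩ := exists_between hbr
  obtain ⟨ρ', hbρ', hρ'ρ⟩ := exists_between hbρ
  have hρ'0 : 0 < ρ' := (norm_nonneg b).trans_lt hbρ'
  have hρ0 : 0 < ρ := hρ'0.trans hρ'ρ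
  obtain ⟨K, hK0, hK⟩ := bound_pi T
  obtain ⟨K', hK'0, hK'⟩ := bound_pi T'
  obtain ⟨B₁, hB₁, hup⟩ := growth_upper T hK0 hK hbρ' s hsr
  obtain ⟨B₂, hB₂, hlo⟩ := growth_lower T T' hT hT' hK'0 hK' hρ0 hρr t htr
  -- projections
  refine ⟨aeval T (W * rp s), aeval T (U * rp t), ?_, commute_aeval _ _, commute_aeval _ _,
    ?_, ?_, B₁ * B₂ + 1, ρ / ρ', by positivity, (one_lt_div hρ'0).2 hρ'ρ, ?_⟩
  · rw [← map_add, add_comm, hUW, map_one]
  · intro htop
    have h1 : x ∈ LinearMap.ker (aeval T (W * rp s)) := by rw [htop]; trivial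
    rw [LinearMap.mem_ker, aeval_eigen T hTx] at h1
    have h2 : (U * rp t).eval a = 0 := by
      rw [eval_mul, (eval_rp t a).2 hat, mul_zero]
    have h3 : (W * rp s).eval a = 1 := by
      have := congrArg (eval a) hUW
      rw [eval_add, h2, zero_add, eval_one] at this
      exact this
    rw [h3, one_smul] at h1
    exact hx h1
  · intro htop
    have h1 : y ∈ LinearMap.ker (aeval T (U * rp t)) := by rw [htop]; trivial
    rw [LinearMap.mem_ker, aeval_eigen T hTy] at h1
    have h2 : (W * rp s).eval b = 0 := by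
      rw [eval_mul, (eval_rp s b).2 hbs, mul_zero]
    have h3 : (U * rp t).eval b = 1 := by
      have := congrArg (eval b) hUW
      rw [eval_add, h2, add_zero, eval_one] at this
      exact this
    rw [h3, one_smul] at h1
    exact hy h1
  · intro v m
    set p := aeval T (W * rp s) with hp
    set q := aeval T (U * rp t) with hq
    have hTp : T ^ m * p = p * T ^ m := (Commute.pow_left (commute_aeval T _) m)
    have hTq : T ^ m * q = q * T ^ m := (Commute.pow_left (commute_aeval T _) m)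
    have hCH : aeval T (rp t * rp s) = 0 := by rw [hst]; exact LinearMap.aeval_self_charpoly T
    have hpk : ∀ w, p w ∈ LinearMap.ker (aeval T (rp t)) := by
      intro w
      rw [LinearMap.mem_ker, hp, ← Module.End.mul_apply, ← map_mul,
        show rp t * (W * rp s) = W * (rp t * rp s) by ring, map_mul, hCH, mul_zero]
      rfl
    have hqk : ∀ w, q w ∈ LinearMap.ker (aeval T (rp s)) := by
      intro w
      rw [LinearMap.mem_ker, hq, ← Module.End.mul_apply, ← map_mul,
        show rp s * (U * rp t) = U * (rp t * rp s) by ring, map_mul, hCH, mul_zero]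
      rfl
    have h1 : ‖q ((T ^ m) v)‖ ≤ B₁ * ρ' ^ m * ‖q v‖ := by
      rw [← Module.End.mul_apply, ← hTq, Module.End.mul_apply]
      exact hup _ (hqk v) m
    have h2 : ‖p v‖ ≤ B₂ * ρ⁻¹ ^ m * ‖p ((T ^ m) v)‖ := by
      have h3 := hlo _ (hpk ((T ^ m) v)) m
      have h4 : (T' ^ m) (p ((T ^ m) v)) = p v := by
        rw [← Module.End.mul_apply p, ← hTp, Module.End.mul_apply, ← Module.End.mul_apply,
          ← (show Commute T' T from hT.trans hT'.symm).mul_pow, hT, one_pow, Module.End.one_apply]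
      rwa [h4] at h3
    calc (ρ / ρ') ^ m * (‖p v‖ * ‖q ((T ^ m) v)‖)
        ≤ (ρ / ρ') ^ m * ((B₂ * ρ⁻¹ ^ m * ‖p ((T ^ m) v)‖) * (B₁ * ρ' ^ m * ‖q v‖)) := by
          gcongr
      _ = (B₁ * B₂) * (‖q v‖ * ‖p ((T ^ m) v)‖) := by
          rw [div_pow, inv_pow]
          field_simp
      _ ≤ (B₁ * B₂ + 1) * (‖q v‖ * ‖p ((T ^ m) v)‖) := by
          gcongr
          linarith

end Vale.Agent.P260.F
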