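import Mathlib

/-!
P260, theorem T2: Tate's theorem in the form of extension of homomorphisms to finite `q`-groups.
-/

namespace Vale.Agent.P260.H191

open Subgroup

variable {q : ℕ} [hq : Fact q.Prime]

/-- Homomorphisms to `𝔽_q` from subgroups of finite index prime to `q` extend. -/
def ExtQ (q : ℕ) (G : Type*) [Group G] : Prop :=
  ∀ H : Subgroup G, H.FiniteIndex → Nat.Coprime q H.index →
    ∀ f : H →* Multiplicative (ZMod q), ∃ F : G →* Multiplicative (ZMod q), ∀ h : H, F h = f h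

omit hq in
theorem exists_pow_inv (hq1 : 1 < q) {n : ℕ} (hn : Nat.Coprime q n) {A : Type*} [Group A]
    (hA : ∀ a : A, a ^ q = 1) : ∃ u : ℕ, ∀ a : A, (a ^ n) ^ u = a := by
  obtain ⟨u, -, hu⟩ := Nat.exists_mul_mod_eq_one_of_coprime hn.symm hq1
  refine ⟨u, fun a => ?_⟩
  rw [← pow_mul, ← Nat.mod_add_div (n * u) q, hu, pow_add, pow_mul, hA, one_pow, pow_one, mul_one]

/-- A central extension by a group of exponent `q` splits if it splits over a subgroup of index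
prime to `q`. -/
theorem split_of_transfer {E A : Type*} [Group E] [CommGroup A] (H : Subgroup E) [H.FiniteIndex]
    (π : H →* A) (hA : ∀ a : A, a ^ q = 1) (hc : Nat.Coprime q H.index) (ζ : A →* E)
    (hζ : ∀ a e, ζ a * e = e * ζ a) (hζH : ∀ a, ζ a ∈ H) (hπ : ∀ a, π ⟨ζ a, hζH a⟩ = a) :
    ∃ τ : E →* A, ∀ a, τ (ζ a) = a := by
  obtain ⟨u, hu⟩ := exists_pow_inv hq.out.one_lt hc hA
  refine ⟨(MonoidHom.transfer π) ^ u, fun a => ?_⟩
  have key : ∀ (k : ℕ) (g₀ : E), g₀⁻¹ * (ζ a) ^ k * g₀ ∈ H → g₀⁻¹ * (ζ a) ^ k * g₀ = (ζ a) ^ k := by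
    intro k g₀ _
    rw [← map_pow, mul_assoc, hζ, inv_mul_cancel_left]
  have h1 : MonoidHom.transfer π (ζ a) = a ^ H.index := by
    rw [MonoidHom.transfer_eq_pow π (ζ a) key]
    have h2 : (⟨(ζ a) ^ H.index, MonoidHom.transfer_eq_pow_aux (ζ a) key⟩ : H) =
        (⟨ζ a, hζH a⟩ : H) ^ H.index := by
      ext
      rw [SubmonoidClass.coe_pow]
    rw [h2, map_pow, hπ]
  rw [MonoidHom.pow_apply, h1, hu]

theorem lift_step {G Y Yb : Type*} [Group G] [Group Y] [Group Yb] (hG : ExtQ q G)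
    (H : Subgroup G) [hH : H.FiniteIndex] (hc : Nat.Coprime q H.index) (r : Y →* Yb)
    (hr : Function.Surjective r) (ζ : Multiplicative (ZMod q) →* Y)
    (hζ : ∀ a y, ζ a * y = y * ζ a) (hζi : Function.Injective ζ)
    (hker : ∀ y, r y = 1 ↔ ∃ a, ζ a = y) (φ : H →* Y) (Ψ : G →* Yb)
    (hΨ : ∀ h : H, Ψ h = r (φ h)) : ∃ Φ : G →* Y, ∀ h : H, Φ h = φ h := by
  have hA : ∀ a : Multiplicative (ZMod q), a ^ q = 1 := by
    intro a
    rw [← ofAdd_toAdd a, ← ofAdd_nsmul]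
    simp
  have hrζ : ∀ a, r (ζ a) = 1 := fun a => (hker _).2 ⟨a, rfl⟩
  let E : Subgroup (G × Y) :=
    (Ψ.comp (MonoidHom.fst G Y)).eqLocus (r.comp (MonoidHom.snd G Y))
  have hE : ∀ e : E, Ψ e.1.1 = r e.1.2 := fun e => e.2
  let p₁ : E →* G := (MonoidHom.fst G Y).comp E.subtype
  have hp₁ : Function.Surjective p₁ := by
    intro g
    obtain ⟨y, hy⟩ := hr (Ψ g)
    exact ⟨⟨(g, y), hy.symm⟩, rfl⟩
  let H' : Subgroup E := H.comap p₁
  have hidx : H'.index = H.index := Subgroup.index_comap_of_surjective H hp₁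
  have hH' : H'.FiniteIndex := ⟨by rw [hidx]; exact hH.index_ne_zero⟩
  let p₂ : E →* Y := (MonoidHom.snd G Y).comp E.subtype
  let w : H' →* H := (p₁.comp H'.subtype).codRestrict H (fun e => e.2)
  have hw : ∀ e : H', ((w e : H) : G) = p₁ e := fun e => rfl
  have hE' : ∀ e : E, Ψ (p₁ e) = r (p₂ e) := fun e => e.2
  have hex : ∀ e : H', ∃ a, ζ a = p₂ e * (φ (w e))⁻¹ := by
    intro e
    rw [← hker, map_mul, map_inv, ← hΨ (w e), hw, ← hE' e, mul_inv_cancel]
  choose π₀ hπ₀ using hex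
  let π : H' →* Multiplicative (ZMod q) := MonoidHom.mk' π₀ (by
    intro e f
    apply hζi
    calc ζ (π₀ (e * f)) = (p₂ e * p₂ f) * (φ (w e) * φ (w f))⁻¹ := by
          rw [hπ₀, Subgroup.coe_mul, map_mul, map_mul, map_mul]
      _ = p₂ e * (p₂ f * (φ (w f))⁻¹) * (φ (w e))⁻¹ := by group
      _ = ζ (π₀ f) * p₂ e * (φ (w e))⁻¹ := by rw [← hπ₀ f, hζ]
      _ = ζ (π₀ f) * ζ (π₀ e) := by rw [mul_assoc, ← hπ₀ e]
      _ = ζ (π₀ e * π₀ f) := by rw [map_mul, hζ])
  let ζ' : Multiplicative (ZMod q) →* E := (MonoidHom.inr G Y |>.comp ζ).codRestrict E (by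
    intro a
    change Ψ 1 = r (ζ a)
    rw [hrζ, map_one])
  have hζ'1 : ∀ a, p₁ (ζ' a) = 1 := fun a => rfl
  have hζ'2 : ∀ a, p₂ (ζ' a) = ζ a := fun a => rfl
  have hEext : ∀ e f : E, p₁ e = p₁ f → p₂ e = p₂ f → e = f := by
    intro e f h1 h2
    exact Subtype.ext (Prod.ext h1 h2)
  obtain ⟨τ, hτ⟩ := split_of_transfer H' π hA (by rw [hidx]; exact hc) ζ' (by
    intro a e
    apply hEext
    · rw [map_mul, map_mul, hζ'1, one_mul, mul_one]
    · rw [map_mul, map_mul, hζ'2, hζ]) (by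
    intro a
    change p₁ (ζ' a) ∈ H
    rw [hζ'1]
    exact H.one_mem) (by
    intro a
    apply hζi
    change ζ (π₀ _) = ζ a
    rw [hπ₀]
    have : w ⟨ζ' a, by change p₁ (ζ' a) ∈ H; rw [hζ'1]; exact H.one_mem⟩ = 1 := by
      apply Subtype.ext
      exact hζ'1 a
    rw [this, map_one, inv_one, mul_one, hζ'2])
  -- the complement
  let f : τ.ker →* G := p₁.comp τ.ker.subtype
  have hfi : Function.Injective f := by
    rw [injective_iff_map_eq_one]
    intro k hk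
    have h1 : r (p₂ k) = 1 := by
      rw [← hE', show p₁ (k : E) = 1 from hk, map_one]
    obtain ⟨a, ha⟩ := (hker _).1 h1
    have h2 : (k : E) = ζ' a := by
      apply hEext
      · rw [hζ'1]; exact hk
      · rw [hζ'2, ha]
    have h3 : τ k = 1 := k.2
    rw [h2, hτ] at h3
    apply Subtype.ext
    rw [h2, h3, map_one]
    rfl
  have hfs : Function.Surjective f := by
    intro g
    obtain ⟨e, he⟩ := hp₁ g
    refine ⟨⟨e * ζ' (τ e)⁻¹, ?_⟩, ?_⟩
    · rw [MonoidHom.mem_ker, map_mul, hτ, mul_inv_cancel]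
    · change p₁ (e * ζ' (τ e)⁻¹) = g
      rw [map_mul, hζ'1, mul_one, he]
  let e₀ : τ.ker ≃* G := MulEquiv.ofBijective f ⟨hfi, hfs⟩
  let Φ₀ : G →* Y := (p₂.comp τ.ker.subtype).comp e₀.symm.toMonoidHom
  have hΦ₀ : ∀ g, r (Φ₀ g) = Ψ g := by
    intro g
    change r (p₂ (e₀.symm g : τ.ker)) = Ψ g
    rw [← hE']
    have h1 : p₁ ((e₀.symm g : τ.ker) : E) = e₀ (e₀.symm g) := rfl
    rw [h1, MulEquiv.apply_symm_apply]
  have hex2 : ∀ h : H, ∃ a, ζ a = (Φ₀ h)⁻¹ * φ h := by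
    intro h
    rw [← hker, map_mul, map_inv, hΦ₀, hΨ, inv_mul_cancel]
  choose δ₀ hδ₀ using hex2
  let δ : H →* Multiplicative (ZMod q) := MonoidHom.mk' δ₀ (by
    intro a b
    apply hζi
    calc ζ (δ₀ (a * b)) = (Φ₀ a * Φ₀ b)⁻¹ * (φ a * φ b) := by
          rw [hδ₀, Subgroup.coe_mul, map_mul, map_mul]
      _ = (Φ₀ b)⁻¹ * ((Φ₀ a)⁻¹ * φ a) * φ b := by group
      _ = ζ (δ₀ a) * (Φ₀ b)⁻¹ * φ b := by rw [← hδ₀ a, hζ]
      _ = ζ (δ₀ a) * ζ (δ₀ b) := by rw [mul_assoc, ← hδ₀ b]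
      _ = ζ (δ₀ a * δ₀ b) := by rw [map_mul])
  obtain ⟨F, hF⟩ := hG H hH hc δ
  refine ⟨MonoidHom.mk' (fun g => Φ₀ g * ζ (F g)) ?_, ?_⟩
  · intro a b
    calc Φ₀ (a * b) * ζ (F (a * b)) = Φ₀ a * (Φ₀ b * ζ (F a)) * ζ (F b) := by
          rw [map_mul, map_mul, map_mul]; group
      _ = (Φ₀ a * ζ (F a)) * (Φ₀ b * ζ (F b)) := by
          rw [← hζ (F a) (Φ₀ b)]; group
  · intro h
    change Φ₀ h * ζ (F h) = φ h
    rw [hF h]
    change Φ₀ h * ζ (δ₀ h) = φ h
    rw [hδ₀, mul_inv_cancel_left]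

/-- **Tate's theorem**: homomorphisms from subgroups of index prime to `q` to finite `q`-groups
extend. -/
theorem ext_group {G : Type*} [Group G] (hG : ExtQ q G) (H : Subgroup G) [hH : H.FiniteIndex]
    (hc : Nat.Coprime q H.index) (n : ℕ) : ∀ (Y : Type*) [Group Y] [Finite Y], IsPGroup q Y →
      Nat.card Y = n → ∀ φ : H →* Y, ∃ Φ : G →* Y, ∀ h : H, Φ h = φ h := by
  induction n using Nat.strong_induction_on with
  | _ n ih =>
    intro Y _ _ hY hn φ
    by_cases htriv : Subsingleton Y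
    · exact ⟨1, fun h => Subsingleton.elim _ _⟩
    rw [not_subsingleton_iff_nontrivial] at htriv
    have hcen := hY.center_nontrivial
    have hcp : IsPGroup q (Subgroup.center Y) := hY.to_subgroup _
    obtain ⟨z, hz⟩ := exists_prime_orderOf_dvd_card' (G := Subgroup.center Y) q (by
      obtain ⟨k, hk, hc⟩ := (IsPGroup.nontrivial_iff_card hcp).mp hcen
      rw [hc]
      exact dvd_pow_self q hk.ne')
    have hzY : orderOf (z : Y) = q := by rw [Subgroup.orderOf_coe, hz]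
    let Z : Subgroup Y := Subgroup.zpowers (z : Y)
    have hZc : ∀ x ∈ Z, ∀ y : Y, x * y = y * x := by
      intro x hx y
      have h1 : Z ≤ Subgroup.center Y := by
        rw [Subgroup.zpowers_le]
        exact z.2
      exact (Subgroup.mem_center_iff.1 (h1 hx) y).symm
    have hZn : Z.Normal := by
      constructor
      intro x hx g
      rw [← hZc x hx g, mul_inv_cancel_right]
      exact hx
    have hZcard : Nat.card Z = q := by rw [Nat.card_zpowers, hzY]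
    let ι : Multiplicative (ZMod q) ≃* Z := mulEquivOfPrimeCardEq (p := q) (by simp) hZcard
    have hcardq : Nat.card (Y ⧸ Z) < n := by
      have h1 := Subgroup.card_eq_card_quotient_mul_card_subgroup Z
      rw [hZcard, hn] at h1
      have h2 : 0 < Nat.card (Y ⧸ Z) := Nat.card_pos
      have h3 := hq.out.one_lt
      rw [h1]
      nlinarith
    obtain ⟨Ψ, hΨ⟩ := ih _ hcardq (Y ⧸ Z) (hY.to_quotient Z) rfl ((QuotientGroup.mk' Z).comp φ)
    refine lift_step hG H hc (QuotientGroup.mk' Z) (QuotientGroup.mk'_surjective Z)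
      (Z.subtype.comp ι.toMonoidHom) ?_ ?_ ?_ φ Ψ hΨ
    · intro a y
      exact hZc _ (ι a).2 y
    · intro a b hab
      exact ι.injective (Subtype.ext hab)
    · intro y
      rw [← MonoidHom.mem_ker, QuotientGroup.ker_mk']
      constructor
      · intro hy
        exact ⟨ι.symm ⟨y, hy⟩, by
          change ((ι (ι.symm ⟨y, hy⟩) : Z) : Y) = y
          rw [MulEquiv.apply_symm_apply]⟩
      · rintro ⟨a, rfl⟩
        exact (ι a).2

end Vale.Agent.P260.H191
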