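import Vale.Agent.P260.Spec4
import Vale.Agent.P260.H573.Ind

/-!
P260, theorem T4, block F2: a finitely generated group all of whose representations in
characteristic zero are virtually solvable: uniformity for families of representations.
-/

namespace Vale.Agent.P260.H191

open Vale.Agent.P260.F (der der_mono der_anti map_der derivedSeries_eq)

/-- The text of block F for a fixed group. -/
def LinSolv (G : Type) [Group G] : Prop :=
  ∀ (K : Type) [Field K] [CharZero K] (m : ℕ) (ρ : G →* GL (Fin m) K),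
    ∃ H : Subgroup G, H.FiniteIndex ∧ Group.IsSolvable (H.map ρ)

theorem map_derivedSeries {G : Type*} [Group G] (H : Subgroup G) (n : ℕ) :
    (derivedSeries H n).map H.subtype = der H n := by
  rw [derivedSeries_eq, map_der, ← MonoidHom.range_eq_map, Subgroup.range_subtype]

theorem mem_der_of {G : Type*} [Group G] {H : Subgroup G} {n : ℕ} {x : H}
    (hx : x ∈ derivedSeries H n) : (x : G) ∈ der H n := by
  rw [← map_derivedSeries]
  exact ⟨x, hx, rfl⟩

/-- the form with `der` -/
theorem LinSolv.der {G : Type} [Group G] (h : LinSolv G) (K : Type) [Field K] [CharZero K] (m : ℕ)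
    (ρ : G →* GL (Fin m) K) : ∃ H : Subgroup G, H.FiniteIndex ∧ ∃ n, ∀ x ∈ der H n, ρ x = 1 := by
  obtain ⟨H, hH, hs⟩ := h K m ρ
  obtain ⟨n, hn⟩ := hs.solvable
  refine ⟨H, hH, n, fun x hx => ?_⟩
  have h1 : ρ x ∈ (F.der H n).map ρ := ⟨x, hx, rfl⟩
  rw [map_der, ← map_derivedSeries, hn, Subgroup.map_bot] at h1
  exact h1

/-- Representations over a reduced noetherian `ℚ`-algebra. -/
theorem LinSolv.noetherian {G : Type} [Group G] (h : LinSolv G) {A : Type} [CommRing A]
    [Algebra ℚ A] [IsNoetherianRing A] [IsReduced A] (m : ℕ) (ρ : G →* GL (Fin m) A) :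
    ∃ H : Subgroup G, H.FiniteIndex ∧ ∃ n, ∀ x ∈ F.der H n, ρ x = 1 := by
  classical
  have hfin : (minimalPrimes A).Finite := minimalPrimes.finite_of_isNoetherianRing A
  have key : ∀ p ∈ minimalPrimes A, ∃ H : Subgroup G, H.FiniteIndex ∧ ∃ n, ∀ x ∈ F.der H n,
      ∀ a b, (ρ x : Matrix (Fin m) (Fin m) A) a b - (1 : Matrix (Fin m) (Fin m) A) a b ∈ p := by
    intro p hp
    have hpp : p.IsPrime := hp.1.1
    let φ : A →+* FractionRing (A ⧸ p) :=
      (algebraMap (A ⧸ p) (FractionRing (A ⧸ p))).comp (Ideal.Quotient.mk p)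
    have hchar : CharZero (FractionRing (A ⧸ p)) := by
      have hh : RingHom ℚ (FractionRing (A ⧸ p)) := φ.comp (algebraMap ℚ A)
      exact charZero_of_injective_ringHom (RingHom.injective hh)
    obtain ⟨H, hH, n, hn⟩ := h.der (FractionRing (A ⧸ p)) m
      ((Matrix.GeneralLinearGroup.map φ).comp ρ)
    refine ⟨H, hH, n, fun x hx a b => ?_⟩
    have h1 := hn x hx
    have h2 : φ ((ρ x : Matrix (Fin m) (Fin m) A) a b) =
        φ ((1 : Matrix (Fin m) (Fin m) A) a b) := by
      have h3 := congrArg (fun u : GL (Fin m) (FractionRing (A ⧸ p)) =>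
        (u : Matrix (Fin m) (Fin m) (FractionRing (A ⧸ p))) a b) h1
      simp only [MonoidHom.comp_apply, Matrix.GeneralLinearGroup.map_apply, Units.val_one] at h3
      rw [h3, Matrix.one_apply, Matrix.one_apply]
      split_ifs <;> simp
    have h4 : Ideal.Quotient.mk p ((ρ x : Matrix (Fin m) (Fin m) A) a b) =
        Ideal.Quotient.mk p ((1 : Matrix (Fin m) (Fin m) A) a b) :=
      IsFractionRing.injective (A ⧸ p) (FractionRing (A ⧸ p)) h2
    exact (Ideal.Quotient.mk_eq_mk_iff_sub_mem _ _).1 h4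
  choose! H hH n hn using key
  refine ⟨⨅ p ∈ hfin.toFinset, H p, ?_, hfin.toFinset.sup n, ?_⟩
  · rw [← Finset.inf_eq_iInf]
    apply Finset.inf_induction
    · infer_instance
    · intro a ha b hb
      infer_instance
    · intro p hp
      exact hH p (hfin.mem_toFinset.1 hp)
  · intro x hx
    ext a b
    rw [← sub_eq_zero]
    have h2 : (ρ x : Matrix (Fin m) (Fin m) A) a b - (1 : Matrix (Fin m) (Fin m) A) a b ∈
        sInf (minimalPrimes A) := by
      rw [Submodule.mem_sInf]
      intro p hp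
      apply hn p hp x
      refine der_mono ?_ _ (der_anti _ ?_ hx)
      · exact iInf₂_le p (hfin.mem_toFinset.2 hp)
      · exact Finset.le_sup (f := n) (hfin.mem_toFinset.2 hp)
    have h3 : sInf (minimalPrimes A) = (⊥ : Ideal A).radical := Ideal.sInf_minimalPrimes
    rw [h3] at h2
    have h4 : IsNilpotent ((ρ x : Matrix (Fin m) (Fin m) A) a b -
        (1 : Matrix (Fin m) (Fin m) A) a b) := by
      rw [← mem_nilradical]
      exact h2
    rw [Units.val_one]
    exact h4.eq_zero

/-- Uniformity for representations of fixed degree. -/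
theorem uniform {G : Type} [Group G] (hfg : Group.FG G) (h : LinSolv G) (I : Type) (K : I → Type)
    [∀ i, Field (K i)] [∀ i, CharZero (K i)] (m : ℕ) (ρ : ∀ i, G →* GL (Fin m) (K i)) :
    ∃ H : Subgroup G, H.FiniteIndex ∧ ∃ n, ∀ i, ∀ x ∈ der H n, ρ i x = 1 := by
  classical
  obtain ⟨S, hS⟩ := hfg.out
  let e : G → Fin m → Fin m → (∀ i, K i) := fun g a b i => (ρ i g : Matrix (Fin m) (Fin m) (K i)) a b
  let T : Finset (∀ i, K i) := (S ∪ S.image (·⁻¹)).biUnion fun g =>
    Finset.univ.biUnion fun a => Finset.univ.image fun b => e g a b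
  let A : Subalgebra ℚ (∀ i, K i) := Algebra.adjoin ℚ (T : Set (∀ i, K i))
  have hAfg : A.FG := ⟨T, rfl⟩
  have hA : IsNoetherianRing A := isNoetherianRing_of_fg hAfg
  have hT : ∀ g ∈ S ∪ S.image (·⁻¹), ∀ a b, e g a b ∈ A := by
    intro g hg a b
    apply Algebra.subset_adjoin
    simp only [T, Finset.coe_biUnion, Set.mem_iUnion, Finset.coe_image, Set.mem_image,
      Finset.mem_coe]
    exact ⟨g, hg, a, Finset.mem_univ _, b, Finset.mem_univ _, rfl⟩
  have he_mul : ∀ g h a b, e (g * h) a b = ∑ c, e g a c * e h c b := by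
    intro g h a b
    funext i
    simp only [e, map_mul, Units.val_mul, Matrix.mul_apply, Finset.sum_apply, Pi.mul_apply]
  have he_one : ∀ a b, e 1 a b = if a = b then 1 else 0 := by
    intro a b
    funext i
    simp only [e, map_one, Units.val_one, Matrix.one_apply]
    split_ifs <;> rfl
  have hmul : ∀ g h, (∀ a b, e g a b ∈ A) → (∀ a b, e h a b ∈ A) → ∀ a b, e (g * h) a b ∈ A := by
    intro g h hg hh a b
    rw [he_mul]
    exact A.sum_mem fun c _ => A.mul_mem (hg a c) (hh c b)
  have hone : ∀ a b, e 1 a b ∈ A := by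
    intro a b
    rw [he_one]
    split_ifs
    · exact A.one_mem
    · exact A.zero_mem
  have hAll : ∀ g, ∀ a b, e g a b ∈ A := by
    intro g
    have hg : g ∈ Subgroup.closure (S : Set G) := by rw [hS]; trivial
    induction hg using Subgroup.closure_induction'' with
    | mem x hx => exact hT x (Finset.mem_union_left _ hx)
    | inv_mem x hx => exact hT x⁻¹ (Finset.mem_union_right _ (Finset.mem_image_of_mem _ hx))
    | one => exact hone
    | mul x y _ _ hx hy => exact hmul x y hx hy
  let M : G →* Matrix (Fin m) (Fin m) A :=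
    { toFun := fun g => Matrix.of fun a b => ⟨e g a b, hAll g a b⟩
      map_one' := by
        ext a b
        simp only [Matrix.of_apply, he_one, Matrix.one_apply]
        split_ifs <;> rfl
      map_mul' := by
        intro g h
        ext a b
        simp only [Matrix.of_apply, he_mul, Matrix.mul_apply]
        rw [AddSubmonoidClass.coe_finsetSum]
        rfl }
  let ρA : G →* GL (Fin m) A := M.toHomUnits
  have hρA : ∀ g a b i, ((ρA g : Matrix (Fin m) (Fin m) A) a b : ∀ i, K i) i =
      (ρ i g : Matrix (Fin m) (Fin m) (K i)) a b := fun g a b i => rfl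
  have hred : IsReduced A := by
    constructor
    rintro ⟨x, hx⟩ ⟨n, hn⟩
    have h1 : x ^ n = 0 := congrArg Subtype.val hn
    apply Subtype.ext
    exact (show IsNilpotent x from ⟨n, h1⟩).eq_zero
  obtain ⟨H, hH, n, hn⟩ := h.noetherian m ρA
  refine ⟨H, hH, n, fun i x hx => ?_⟩
  ext a b
  rw [← hρA x a b i, hn x hx, Units.val_one, Units.val_one, Matrix.one_apply, Matrix.one_apply]
  split_ifs <;> rfl

/-- change of the degree -/
theorem exists_cast {G : Type} [Group G] {K : Type} [Field K] {a b : ℕ} (h : a = b)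
    (ρ : G →* GL (Fin a) K) : ∃ ρ' : G →* GL (Fin b) K, ∀ x, ρ' x = 1 ↔ ρ x = 1 := by
  subst h
  exact ⟨ρ, fun _ => Iff.rfl⟩

theorem uniform' {G : Type} [Group G] (hfg : Group.FG G) (h : LinSolv G) (I : Type) (K : I → Type)
    [∀ i, Field (K i)] [∀ i, CharZero (K i)] (r : ℕ) (m : I → ℕ) (hm : ∀ i, m i ≤ r)
    (ρ : ∀ i, G →* GL (Fin (m i)) (K i)) :
    ∃ H : Subgroup G, H.FiniteIndex ∧ ∃ n, ∀ i, ∀ x ∈ der H n, ρ i x = 1 := by
  classical
  have key : ∀ j : ℕ, ∃ H : Subgroup G, H.FiniteIndex ∧ ∃ n, ∀ i, m i = j → ∀ x ∈ der H n,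
      ρ i x = 1 := by
    intro j
    choose ρ' hρ' using fun i : {i // m i = j} => exists_cast i.2 (ρ i)
    obtain ⟨H, hH, n, hn⟩ := uniform hfg h {i // m i = j} (fun i => K i) j ρ'
    exact ⟨H, hH, n, fun i hi x hx => (hρ' ⟨i, hi⟩ x).1 (hn ⟨i, hi⟩ x hx)⟩
  choose H hH n hn using key
  refine ⟨⨅ j ∈ Finset.range (r + 1), H j, ?_, (Finset.range (r + 1)).sup n, ?_⟩
  · rw [← Finset.inf_eq_iInf]
    apply Finset.inf_induction
    · infer_instance
    · intro a ha b hb
      infer_instance
    · intro p _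
      exact hH p
  · intro i x hx
    have hi : m i ∈ Finset.range (r + 1) := Finset.mem_range.2 (Nat.lt_succ_of_le (hm i))
    apply hn (m i) i rfl x
    refine der_mono ?_ _ (der_anti _ ?_ hx)
    · exact iInf₂_le (m i) hi
    · exact Finset.le_sup (f := n) hi

/-- Block F2 from block F. -/
theorem blockF2_of (hF : BlockF) : BlockF2 := by
  intro G _ hfg hFol I K _ _ r m hm ρ
  have h : LinSolv G := fun K _ _ m ρ => hF K m G hfg hFol ρ
  obtain ⟨H, hH, n, hn⟩ := uniform' hfg h I K r m hm ρ
  refine ⟨H.normalCore, inferInstance, inferInstance, n, fun i x hx => ?_⟩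
  exact hn i x (der_mono H.normalCore_le n (mem_der_of hx))

end Vale.Agent.P260.H191
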